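import Vale.Agent.P217B7.Main

/-!
# P217: Chai's conjecture for every formal group law over `𝔽_p` with `[p](X) = X^(p^n)`
-/

namespace Vale.Agent.Results.P217.AAllHondaLaws

open Vale.Agent.P217.LT Vale.Agent.P217B7

/-- **Chai's invariant ideal conjecture.** The law `H` with the Honda logarithm exists, is
commutative and has `[p](X) = X^(p^n)`. Let `Γ` be any commutative formal group law over `𝔽_p`
with `[p](X) = X^(p^n)`. Then `Γ` is strictly isomorphic to `H` over `𝔽_p`; `Γ` has a universal
deformation over `E₀` for which the ideals `I_h` cut out the loci of height at least `h`; and for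
every such universal deformation each element of `G_n` acts on `E₀` by exactly one ring
homomorphism, which is an automorphism, the invariant prime ideals are exactly `I_0, …, I_n`, and
the invariant radical ideals are exactly `I_0, …, I_n, E₀`. -/
theorem result (p n : ℕ) [Fact p.Prime] (hn : 1 ≤ n) :
    (∃! H, IsHonda p n H) ∧
    (∀ H, IsHonda p n H → H.IsComm ∧ multSeries H p = PowerSeries.X ^ p ^ n) ∧
    ∀ Γ : FormalGroup (ZMod p), Γ.IsComm → multSeries Γ p = PowerSeries.X ^ p ^ n →
      (∀ H, IsHonda p n H → ∃ v, IsIso Γ H v ∧ PowerSeries.coeff 1 v = 1) ∧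
      (∃ F, IsUniversal p n Γ F ∧ CutsOut p n F) ∧
      ∀ F, IsUniversal p n Γ F → CutsOut p n F →
        (∀ σ γ, IsIso (base p n Γ) (base p n Γ) γ →
          ∃ φ : E0 p n ≃+* E0 p n, ∀ ψ, Acts p n Γ F σ γ ψ ↔ ψ = φ) ∧
        ∀ J : Ideal (E0 p n),
          ((J.IsPrime ∧ IsInvariant p n Γ F J) ↔ ∃ h ≤ n, J = heightIdeal p n h) ∧
          ((J.IsRadical ∧ IsInvariant p n Γ F J) ↔
            (J = ⊤ ∨ ∃ h ≤ n, J = heightIdeal p n h)) :=
  Vale.Agent.P217B7.final p n hn

end Vale.Agent.Results.P217.AAllHondaLaws
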